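import Mathlib
import Vale.Agent.Lib.P334.Defs
import Vale.Agent.Lib.P334.Greedy

namespace Vale.Agent.Results.P334.GreedyTwoValued

open Vale.Agent.Lib.P334

/-- On `k`-median instances whose client-facility distances take only two values `0 < a ≤ b`,
every run of the greedy algorithm costs at most `1 + (b - a) / (a e)` times the cost of any
set of at most `k` facilities; for `b ≤ 3 a` this factor is at most `1 + 2 / e`. -/
theorem result {J F : Type*} [Fintype J] [DecidableEq F] (d : J → F → ℝ) (a b : ℝ)
    (ha : 0 < a) (hab : a ≤ b) (hd : ∀ j i, d j i = a ∨ d j i = b)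
    (k : ℕ) (hk : 1 ≤ k) (s : ℕ → F) (hs : IsGreedyRun d s k) (hne : (chosen s k).Nonempty)
    (T : Finset F) (hT : T.Nonempty) (hTk : T.card ≤ k) :
    cost d (chosen s k) hne ≤ (1 + (b - a) / a * Real.exp (-1)) * cost d T hT ∧
      (b ≤ 3 * a → cost d (chosen s k) hne ≤ (1 + 2 / Real.exp 1) * cost d T hT) := by
  have h1 := greedy_two_valued d a b ha hab hd k hk s hs hne T hT hTk
  refine ⟨h1, fun hb => le_trans h1 ?_⟩
  have hcost : 0 ≤ cost d T hT := by
    unfold cost
    apply Finset.sum_nonneg
    intro j _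
    rw [Finset.le_inf'_iff]
    intro i _
    rcases hd j i with h | h <;> rw [h] <;> linarith
  apply mul_le_mul_of_nonneg_right _ hcost
  have h2 : (b - a) / a ≤ 2 := by
    rw [div_le_iff₀ ha]
    linarith
  have h3 : Real.exp (-1) = 1 / Real.exp 1 := by
    rw [Real.exp_neg, one_div]
  have h4 : 0 < Real.exp (-1) := Real.exp_pos _
  have h5 : 2 / Real.exp 1 = 2 * Real.exp (-1) := by
    rw [h3]
    ring
  rw [h5]
  nlinarith

end Vale.Agent.Results.P334.GreedyTwoValued
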